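import Vale.Agent.P195.Window.Machine
import Vale.Agent.P195.Model.SqLam
import Vale.Agent.P195.Model.Aug
import Vale.Agent.P195.Model.SelfExact
import Vale.Agent.P195.Model.YExact
import Vale.Agent.P195.Model.VTarget

/-!
P195: the Auslander-Reiten conjecture fails: over every field of characteristic zero there is a
finite-dimensional algebra with a finitely generated non-projective module without self-extensions
and without extensions into the algebra, in all positive degrees.
-/

open CategoryTheory Abelian

namespace Vale.Agent.Results.P195.AuslanderReitenFalse

open _root_.P195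

theorem result (k : Type) [Field k] [CharZero k] :
    ∃ (A : Type) (_ : Ring A) (_ : Algebra k A), FiniteDimensional k A ∧
      ∃ M : ModuleCat.{0} A, Module.Finite A M ∧ ¬ Module.Projective A M ∧
        ∀ i : ℕ, 1 ≤ i → Subsingleton (Ext M M i) ∧ Subsingleton (Ext M (ModuleCat.of A A) i) := by
  obtain ⟨A, hR, hA, hfin, M, hM, hP, hext⟩ :=
    Window.counterexample (Model.cellsOf (k := k) Model.sqLam) (Model.acyclic Model.sqLam)
      (Model.SY k) (Model.augmentation Model.sqLam)
      (fun E hE => Model.selfExact Model.sqLam E hE) (fun E hE => Model.yExact Model.sqLam E hE)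
      (Model.SV k) (Model.SV_concentrated k) (Model.SV_top k) 2 (by norm_num)
      (Model.v_not_exact Model.sqLam)
  exact ⟨A, hR, hA, hfin, M, hM, fun h => hP ((IsProjective.iff_projective M).1 h), hext⟩

end Vale.Agent.Results.P195.AuslanderReitenFalse
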