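import Vale.Agent.P195.Finite

/-!
P195 (Auslander–Reiten conjecture): a counterexample over a finite-dimensional algebra
has syzygies whose sizes tend to infinity, in every projective resolution.
-/

open CategoryTheory Abelian

namespace Vale.Agent.Results.P195.BoundedSyzygies

theorem result :
    ∀ (k A : Type) [Field k] [Ring A] [Algebra k A] [FiniteDimensional k A]
      (S : ℕ → ShortComplex (ModuleCat.{0} A)),
      (∀ i, (S i).ShortExact) → (∀ i, Projective (S i).X₂) →
      (∀ i, Module.Finite A (S i).X₂) → (∀ i, Nonempty ((S i).X₁ ≅ (S (i + 1)).X₃)) →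
      (∀ m : ℕ, 0 < m → Subsingleton (Ext (S 0).X₃ (ModuleCat.of A A) m)) →
      Subsingleton (Ext (S 0).X₃ (S 0).X₃ 1) →
      (∃ B : ℕ, ∀ N : ℕ, ∃ i, N ≤ i ∧
        ∃ f : (Fin B → A) →ₗ[A] (S i).X₃, Function.Surjective f) →
      (∃ a p : ℕ, 0 < p ∧ Nonempty ((S a).X₃ ≅ (S (a + p)).X₃)) ∧
        ((∀ m : ℕ, 0 < m → Subsingleton (Ext (S 0).X₃ (S 0).X₃ m)) →
          Projective (S 0).X₃) := by
  intro k A _ _ _ _ S hS hP hF hφ hA hM hB
  haveI := hP
  haveI := hF
  let φ := fun i => (hφ i).some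
  haveI : ∀ i, Module.Finite A (S i).X₃ := fun i =>
    Module.Finite.of_surjective (S i).g.hom
      ((ModuleCat.epi_iff_surjective _).1 (hS i).epi_g)
  have hA' : ∀ m, 0 < m → P195.Z (S 0).X₃ (ModuleCat.of A A) m :=
    fun m hm e => (hA m hm).elim e 0
  have hr : ∀ i, P195.Z (S i).X₃ (S i).X₃ 1 :=
    fun i => P195.rigid_shift hS φ hA' one_pos (fun e => hM.elim e 0) i
  obtain ⟨a, p, hp, he⟩ := P195.exists_iso_of_bounded k (fun i => (S i).X₃) hr hB
  refine ⟨⟨a, p, hp, he⟩, fun hall => ?_⟩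
  exact P195.projective_of_periodic hS φ hA' (fun m hm e => (hall m hm).elim e 0) hp he.some

end Vale.Agent.Results.P195.BoundedSyzygies
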